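import Mathlib
import Vale.Agent.Lib.P162.Defs

/-!
# P162, pool job E2 (helper95): basic facts on the k-card kernel of the Thorp shuffle

stepProb is a probability kernel (nonnegative, rows sum to one), the same for its matrix powers,
and injective placements stay injective along every path of positive probability (when each
single shuffle is injective on positions).
-/

namespace Vale.Agent.Lib.P162.H95

open Finset BigOperators

theorem stepProb_nonneg (h k : ℕ) [NeZero h] (z y : Fin k → ZMod (2 * h)) :
    0 ≤ stepProb h k z y := by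
  unfold stepProb
  positivity

theorem stepProb_sum (h k : ℕ) [NeZero h] (z : Fin k → ZMod (2 * h)) :
    ∑ y, stepProb h k z y = 1 := by
  classical
  unfold stepProb
  rw [← Finset.sum_div]
  have key : ∀ y : Fin k → ZMod (2 * h),
      (univ.filter fun c : ZMod h → Bool => ∀ j, move h c (z j) = y j)
        = univ.filter (fun c : ZMod h → Bool => (fun j => move h c (z j)) = y) := by
    intro y
    ext c
    simp [funext_iff]
  have hcard : (∑ y : Fin k → ZMod (2 * h),
      ((univ.filter fun c : ZMod h → Bool => ∀ j, move h c (z j) = y j).card : ℝ))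
        = (2 : ℝ) ^ h := by
    have h1 : (univ : Finset (ZMod h → Bool)).card
        = ∑ y : Fin k → ZMod (2 * h),
          (univ.filter (fun c : ZMod h → Bool => (fun j => move h c (z j)) = y)).card :=
      Finset.card_eq_sum_card_fiberwise (fun c _ => Finset.mem_univ _)
    have h2 : (univ : Finset (ZMod h → Bool)).card = 2 ^ h := by
      rw [Finset.card_univ, Fintype.card_fun, ZMod.card, Fintype.card_bool]
    have h3 : (∑ y : Fin k → ZMod (2 * h),
        ((univ.filter fun c : ZMod h → Bool => ∀ j, move h c (z j) = y j).card : ℝ))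
          = ((∑ y : Fin k → ZMod (2 * h),
            (univ.filter (fun c : ZMod h → Bool => (fun j => move h c (z j)) = y)).card : ℕ) : ℝ) := by
      rw [Nat.cast_sum]
      refine Finset.sum_congr rfl (fun y _ => ?_)
      rw [key y]
    rw [h3, ← h1, h2]
    norm_num
  rw [hcard]
  exact div_self (by positivity)

theorem Kmat_pow_nonneg (h k : ℕ) [NeZero h] (s : ℕ) (x y : Fin k → ZMod (2 * h)) :
    0 ≤ (Kmat h k ^ s) x y := by
  classical
  induction s generalizing y with
  | zero =>
    rw [pow_zero, Matrix.one_apply]
    split_ifs <;> norm_num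
  | succ s ih =>
    rw [pow_succ, Matrix.mul_apply]
    exact Finset.sum_nonneg (fun u _ => mul_nonneg (ih u) (stepProb_nonneg h k u y))

theorem Kmat_pow_sum (h k : ℕ) [NeZero h] (s : ℕ) (x : Fin k → ZMod (2 * h)) :
    ∑ y, (Kmat h k ^ s) x y = 1 := by
  classical
  induction s with
  | zero =>
    rw [pow_zero, Finset.sum_eq_single x]
    · exact Matrix.one_apply_eq x
    · intro y _ hyx
      exact Matrix.one_apply_ne (Ne.symm hyx)
    · intro hx
      exact absurd (Finset.mem_univ x) hx
  | succ s ih =>
    calc ∑ y, (Kmat h k ^ (s + 1)) x y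
        = ∑ y, ∑ u, (Kmat h k ^ s) x u * Kmat h k u y := by
          refine Finset.sum_congr rfl (fun y _ => ?_)
          rw [pow_succ, Matrix.mul_apply]
      _ = ∑ u, ∑ y, (Kmat h k ^ s) x u * Kmat h k u y := Finset.sum_comm
      _ = ∑ u, (Kmat h k ^ s) x u := by
          refine Finset.sum_congr rfl (fun u _ => ?_)
          rw [← Finset.mul_sum]
          have h3 : ∑ y, Kmat h k u y = 1 := stepProb_sum h k u
          rw [h3, mul_one]
      _ = 1 := ih

theorem Kmat_pow_support (h k : ℕ) [NeZero h]
    (hinj : ∀ c : ZMod h → Bool, Function.Injective (move h c))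
    (x : Fin k → ZMod (2 * h)) (hx : Function.Injective x) (s : ℕ) (y : Fin k → ZMod (2 * h))
    (hy : (Kmat h k ^ s) x y ≠ 0) : Function.Injective y := by
  classical
  induction s generalizing y with
  | zero =>
    rw [pow_zero, Matrix.one_apply] at hy
    by_cases hxy : x = y
    · rw [← hxy]
      exact hx
    · rw [if_neg hxy] at hy
      exact absurd rfl hy
  | succ s ih =>
    rw [pow_succ, Matrix.mul_apply] at hy
    obtain ⟨u, -, hu⟩ := Finset.exists_ne_zero_of_sum_ne_zero hy
    have hu1 : (Kmat h k ^ s) x u ≠ 0 := left_ne_zero_of_mul hu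
    have hu2 : Kmat h k u y ≠ 0 := right_ne_zero_of_mul hu
    have hui : Function.Injective u := ih u hu1
    have hu3 : stepProb h k u y ≠ 0 := hu2
    unfold stepProb at hu3
    have hcard : (univ.filter fun c : ZMod h → Bool => ∀ j, move h c (u j) = y j).card ≠ 0 := by
      intro h0
      apply hu3
      rw [h0]
      simp
    obtain ⟨c, hc⟩ := Finset.card_pos.mp (Nat.pos_of_ne_zero hcard)
    have hc' : ∀ j, move h c (u j) = y j := (Finset.mem_filter.mp hc).2
    have hyu : y = move h c ∘ u := by
      funext j
      exact (hc' j).symm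
    rw [hyu]
    exact (hinj c).comp hui

end Vale.Agent.Lib.P162.H95
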